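import Vale.Agent.P155SG.Final
import Vale.Agent.P155S.Pocket

/-!
# P155: the double-dimer CLE₄ conjecture, CLE₄ defined by the Brownian loop soup

Planar Brownian motion and the Brownian loop soup of central charge `1` exist; exactly one family
of laws of loop collections is made of the outer boundaries of the outermost clusters of the soup
together with conditionally independent copies inside every loop (nested CLE₄ of Sheffield and
Werner); it is the limit in law of the double-dimer loops, exactly when the polygons do not fill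
pockets enclosed by the domain (which can happen: last clause).
-/

namespace Vale.Agent.Results.P155.LoopSoup

open MeasureTheory Filter Topology Vale.Agent.P155 Vale.Agent.P155.Q1 Vale.Agent.P155.Tree
  Vale.Agent.P155.BL Vale.Agent.P155.Soup

/-- **The double-dimer CLE₄ conjecture.** -/
theorem result :
    ((∃ W, IsWiener W) ∧ ∀ W, IsWiener W → ∀ Ω, Dom Ω →
      ∃ (Θ : Type) (_ : MeasurableSpace Θ) (P : Measure Θ) (L : ℕ → Θ → C(S1, ℂ)),
        IsPoisson P (intensity W Ω) L) ∧
    (∃ μ : Set ℂ → Measure LoopColl, IsSoupCLE μ ∧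
      (∀ ν, IsSoupCLE ν → ∀ Ω, Dom Ω → ν Ω = μ Ω) ∧
      ∀ Ω, Dom Ω → (∃ S : Approx Ω, S.Outer) ∧
        ∀ S : Approx Ω, ((∀ F : LoopColl → ℝ, Continuous F → (∃ C, ∀ Γ, |F Γ| ≤ C) →
          Tendsto (fun n => Ex (S.T n).V (fun ω => F (LL (S.δ n) (S.a n) ω))) atTop
            (𝓝 (∫ Γ, F Γ ∂(μ Ω)))) ↔ S.Outer) ∧ (IsConnected (closure Ω)ᶜ → S.Outer)) ∧
    ∃ Ω, Dom Ω ∧ ∃ S : Approx Ω, ¬ S.Outer := by
  obtain ⟨h1, μ, h2, h3, h4⟩ := final_c SG.mgec
  exact ⟨h1, ⟨μ, h2, h3, h4⟩, Pocket.pocket fun Ω hΩ => ⟨(h4 Ω hΩ).1.choose⟩⟩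

end Vale.Agent.Results.P155.LoopSoup
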